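import Vale.Agent.P249.Khintchine
import Mathlib.Analysis.Calculus.Rademacher
import Mathlib.Analysis.Calculus.FDeriv.Measurable
import Mathlib.MeasureTheory.Integral.IntervalIntegral.AbsolutelyContinuousFun
import Mathlib.MeasureTheory.Measure.Lebesgue.EqHaar
import Mathlib.Analysis.Convex.Integral
import Mathlib.Analysis.Convex.SpecificFunctions.Basic

namespace Vale.Agent.P249

open MeasureTheory Set Filter Finset

variable {k : ℕ}

/-- The Euclidean norm on tuples. -/
noncomputable def euc (v : Fin k → ℝ) : ℝ := Real.sqrt (∑ i, v i ^ 2)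

lemma euc_nonneg (v : Fin k → ℝ) : 0 ≤ euc v := Real.sqrt_nonneg _

lemma euc_smul (t : ℝ) (v : Fin k → ℝ) : euc (t • v) = |t| * euc v := by
  simp only [euc, Pi.smul_apply, smul_eq_mul, mul_pow, ← Finset.mul_sum]
  rw [Real.sqrt_mul (sq_nonneg t), Real.sqrt_sq_eq_abs]

lemma euc_le_norm (v : Fin k → ℝ) : euc v ≤ Real.sqrt k * ‖v‖ := by
  rw [← Real.sqrt_sq (norm_nonneg v), ← Real.sqrt_mul (Nat.cast_nonneg k)]
  refine Real.sqrt_le_sqrt ?_
  calc ∑ i, v i ^ 2 ≤ ∑ _i : Fin k, ‖v‖ ^ 2 := by
        refine Finset.sum_le_sum fun i _ => ?_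
        rw [← sq_abs]
        exact pow_le_pow_left₀ (abs_nonneg _) (norm_le_pi_norm v i) 2
    _ = k * ‖v‖ ^ 2 := by simp

variable {G : (Fin k → ℝ) → ℝ} {L : NNReal}
variable (hG : ∀ x y, |G x - G y| ≤ L * euc (x - y))

include hG in
lemma lipschitz_of_euc : LipschitzWith (L * Real.toNNReal (Real.sqrt k)) G := by
  refine LipschitzWith.of_dist_le_mul fun x y => ?_
  rw [Real.dist_eq, dist_eq_norm, NNReal.coe_mul, Real.coe_toNNReal _ (Real.sqrt_nonneg _),
    mul_assoc]
  exact (hG x y).trans (mul_le_mul_of_nonneg_left (euc_le_norm _) L.coe_nonneg)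

include hG in
lemma line_lipschitz (x v : Fin k → ℝ) :
    LipschitzWith (L * Real.toNNReal (euc v)) fun t : ℝ => G (x + t • v) := by
  refine LipschitzWith.of_dist_le_mul fun s t => ?_
  rw [Real.dist_eq, Real.dist_eq, NNReal.coe_mul, Real.coe_toNNReal _ (euc_nonneg _)]
  refine (hG _ _).trans (le_of_eq ?_)
  rw [add_sub_add_left_eq_sub, ← sub_smul, euc_smul]; ring

lemma line_hasDerivAt {x v : Fin k → ℝ} {t : ℝ} (h : DifferentiableAt ℝ G (x + t • v)) :
    HasDerivAt (fun t : ℝ => G (x + t • v)) (fderiv ℝ G (x + t • v) v) t := by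
  have h2 : HasDerivAt (fun t : ℝ => x + t • v) v t := by
    simpa using ((hasDerivAt_id t).smul_const v).const_add x
  exact h.hasFDerivAt.comp_hasDerivAt t h2

include hG in
lemma abs_fderiv_le (x v : Fin k → ℝ) : |fderiv ℝ G x v| ≤ L * euc v := by
  by_cases h : DifferentiableAt ℝ G x
  · have h' : DifferentiableAt ℝ G (x + (0:ℝ) • v) := by simpa using h
    have h1 := (line_hasDerivAt h').deriv
    have h2 := norm_deriv_le_of_lipschitz (x₀ := (0:ℝ)) (line_lipschitz hG x v)
    rw [h1, Real.norm_eq_abs, NNReal.coe_mul, Real.coe_toNNReal _ (euc_nonneg _)] at h2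
    simpa using h2
  · rw [fderiv_zero_of_not_differentiableAt h]
    simpa using mul_nonneg L.coe_nonneg (euc_nonneg v)

/-- The sign vector. -/
def svec (σ : Fin k → Bool) : Fin k → ℝ := fun i => sgn (σ i)

lemma abs_sgn (b : Bool) : |sgn b| = 1 := by cases b <;> simp [sgn]

lemma euc_svec (σ : Fin k → Bool) : euc (svec σ) = Real.sqrt k := by
  have : ∀ i, svec σ i ^ 2 = 1 := fun i => by rw [← sq_abs]; simp [svec, abs_sgn]
  simp [euc, this]

include hG in
lemma sum_fderiv_rpow_le {p : ℝ} (hp : 0 < p) (x : Fin k → ℝ) :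
    ∑ σ, |fderiv ℝ G x (svec σ)| ^ p ≤ 2 ^ k * khC p * (L : ℝ) ^ p := by
  set D := fderiv ℝ G x
  let a : Fin k → ℝ := fun i => D (Pi.single i 1)
  have hlin : ∀ v : Fin k → ℝ, D v = ∑ i, a i * v i := by
    intro v
    have : v = ∑ i, v i • (Pi.single i (1:ℝ)) := by
      ext j; simp [Finset.sum_apply, Pi.single_apply]
    conv_lhs => rw [this]
    rw [map_sum]
    refine Finset.sum_congr rfl fun i _ => ?_
    rw [map_smul]; simp [a, mul_comm]
  have hD : ∀ σ, D (svec σ) = ssum a σ := fun σ => by rw [hlin]; rfl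
  have ha : Real.sqrt (∑ i, a i ^ 2) ≤ L := by
    have h := abs_fderiv_le hG x a
    rw [show fderiv ℝ G x = D from rfl, hlin a] at h
    have hn : 0 ≤ ∑ i, a i ^ 2 := Finset.sum_nonneg fun i _ => sq_nonneg _
    have h' : Real.sqrt (∑ i, a i ^ 2) * Real.sqrt (∑ i, a i ^ 2)
        ≤ L * Real.sqrt (∑ i, a i ^ 2) := by
      rw [Real.mul_self_sqrt hn]
      have h2 := (le_abs_self _).trans h
      simpa [euc, sq] using h2
    rcases eq_or_lt_of_le (Real.sqrt_nonneg (∑ i, a i ^ 2)) with h0 | h0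
    · rw [← h0]; exact L.coe_nonneg
    · exact le_of_mul_le_mul_right h' h0
  simp_rw [hD]
  refine (khintchine_le hp a).trans (mul_le_mul_of_nonneg_left
    (Real.rpow_le_rpow (Real.sqrt_nonneg _) ha hp.le) ?_)
  have := khC_pos hp; positivity

/-- Coordinate box. -/
def box (k : ℕ) (a b : ℝ) : Set (Fin k → ℝ) := Set.univ.pi fun _ => Set.Icc a b

lemma volume_box (a b : ℝ) : volume (box k a b) = ENNReal.ofReal (b - a) ^ k := by
  rw [box, volume_pi_pi]; simp

lemma measurableSet_box (a b : ℝ) : MeasurableSet (box k a b) :=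
  MeasurableSet.univ_pi fun _ => measurableSet_Icc

instance finite_box (a b : ℝ) : IsFiniteMeasure (volume.restrict (box k a b)) := by
  refine isFiniteMeasure_restrict.2 ?_
  rw [volume_box]
  exact ENNReal.pow_ne_top ENNReal.ofReal_ne_top

lemma real_box {a b : ℝ} (h : a ≤ b) : volume.real (box k a b) = (b - a) ^ k := by
  rw [measureReal_def, volume_box, ENNReal.toReal_pow, ENNReal.toReal_ofReal (sub_nonneg.2 h)]

include hG in
lemma ae_ae_differentiable (v : Fin k → ℝ) :
    ∀ᵐ x : Fin k → ℝ, ∀ᵐ t : ℝ, DifferentiableAt ℝ G (x + t • v) := by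
  have hms : MeasurableSet {q : (Fin k → ℝ) × ℝ | DifferentiableAt ℝ G (q.1 + q.2 • v)} :=
    (measurableSet_of_differentiableAt ℝ G).preimage (by fun_prop)
  refine (Measure.ae_ae_comm (p := fun x t => DifferentiableAt ℝ G (x + t • v)) hms).2 ?_
  refine Eventually.of_forall fun t => ?_
  exact (measurePreserving_add_right volume (t • v)).quasiMeasurePreserving.ae
    ((lipschitz_of_euc hG).ae_differentiableAt)

lemma measurable_h (v : Fin k → ℝ) (p : ℝ) :
    Measurable fun x => |fderiv ℝ G x v| ^ p :=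
  (continuous_abs.measurable.comp (measurable_fderiv_apply_const ℝ G v)).pow_const p

include hG in
lemma h_bound (v x : Fin k → ℝ) {p : ℝ} (hp : 0 ≤ p) :
    ‖|fderiv ℝ G x v| ^ p‖ ≤ (L * euc v) ^ p := by
  rw [Real.norm_eq_abs, abs_of_nonneg (Real.rpow_nonneg (abs_nonneg _) _)]
  exact Real.rpow_le_rpow (abs_nonneg _) (abs_fderiv_le hG x v) hp

include hG in
lemma diff_rpow_le {p : ℝ} (hp : 1 ≤ p) (v x : Fin k → ℝ)
    (hx : ∀ᵐ t : ℝ, DifferentiableAt ℝ G (x + t • v)) :
    |G (x + v) - G x| ^ p ≤ ∫ t in Set.Ioc (0:ℝ) 1, |fderiv ℝ G (x + t • v) v| ^ p := by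
  have : IsProbabilityMeasure (volume.restrict (Set.Ioc (0:ℝ) 1)) := ⟨by simp⟩
  have hftc := AbsolutelyContinuousOnInterval.integral_deriv_eq_sub
    (((line_lipschitz hG x v).lipschitzOnWith (s := Set.uIcc (0:ℝ) 1)).absolutelyContinuousOnInterval)
  simp only [one_smul, zero_smul, add_zero] at hftc
  rw [intervalIntegral.integral_of_le zero_le_one] at hftc
  have heq : ∫ t in Set.Ioc (0:ℝ) 1, deriv (fun t : ℝ => G (x + t • v)) t
      = ∫ t in Set.Ioc (0:ℝ) 1, fderiv ℝ G (x + t • v) v :=
    integral_congr_ae (ae_restrict_of_ae (hx.mono fun t ht => (line_hasDerivAt ht).deriv))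
  rw [heq] at hftc
  have hm : Measurable fun t : ℝ => fderiv ℝ G (x + t • v) v :=
    (measurable_fderiv_apply_const ℝ G v).comp (by fun_prop)
  have hi : Integrable (fun t : ℝ => fderiv ℝ G (x + t • v) v) (volume.restrict (Set.Ioc (0:ℝ) 1)) :=
    Integrable.of_bound hm.aestronglyMeasurable (L * euc v)
      (Eventually.of_forall fun t => abs_fderiv_le hG _ v)
  have hip : Integrable (fun t : ℝ => |fderiv ℝ G (x + t • v) v| ^ p)
      (volume.restrict (Set.Ioc (0:ℝ) 1)) :=
    Integrable.of_bound ((measurable_h v p).comp (by fun_prop)).aestronglyMeasurable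
      ((L * euc v) ^ p) (Eventually.of_forall fun t => h_bound hG v _ (by linarith))
  rw [← hftc]
  calc |∫ t in Set.Ioc (0:ℝ) 1, fderiv ℝ G (x + t • v) v| ^ p
      ≤ (∫ t in Set.Ioc (0:ℝ) 1, |fderiv ℝ G (x + t • v) v|) ^ p :=
        Real.rpow_le_rpow (abs_nonneg _) (abs_integral_le_integral_abs) (by linarith)
    _ ≤ _ := (convexOn_rpow hp).map_integral_le
        (Real.continuous_rpow_const (by linarith)).continuousOn isClosed_Ici
        (Eventually.of_forall fun t => Set.mem_Ici.2 (abs_nonneg _)) hi.abs hip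

include hG in
lemma box_diff_le {p : ℝ} (hp : 1 ≤ p) (R : ℝ) (v : Fin k → ℝ) (hv : ∀ i, |v i| ≤ 1) :
    ∫ x in box k 0 R, |G (x + v) - G x| ^ p
      ≤ ∫ y in box k (-1) (R + 1), |fderiv ℝ G y v| ^ p := by
  have : IsProbabilityMeasure (volume.restrict (Set.Ioc (0:ℝ) 1)) := ⟨by simp⟩
  set μ := volume.restrict (box k 0 R)
  set ν := volume.restrict (Set.Ioc (0:ℝ) 1)
  have hGc := (lipschitz_of_euc hG).continuous
  have hint : Integrable (Function.uncurry fun (x : Fin k → ℝ) (t : ℝ) =>
      |fderiv ℝ G (x + t • v) v| ^ p) (μ.prod ν) :=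
    Integrable.of_bound ((measurable_h v p).comp (by fun_prop)).aestronglyMeasurable
      ((L * euc v) ^ p) (Eventually.of_forall fun q => h_bound hG v _ (by linarith))
  have hl : Integrable (fun x => |G (x + v) - G x| ^ p) μ := by
    refine Integrable.of_bound ?_ ((L * euc v) ^ p) (Eventually.of_forall fun x => ?_)
    · exact (Continuous.rpow_const (by fun_prop) (fun _ => Or.inr (by linarith))).aestronglyMeasurable
    · rw [Real.norm_eq_abs, abs_of_nonneg (Real.rpow_nonneg (abs_nonneg _) _)]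
      refine Real.rpow_le_rpow (abs_nonneg _) ?_ (by linarith)
      simpa using hG (x + v) x
  have hbig : IntegrableOn (fun y => |fderiv ℝ G y v| ^ p) (box k (-1) (R + 1)) :=
    Integrable.of_bound (measurable_h v p).aestronglyMeasurable
      ((L * euc v) ^ p) (Eventually.of_forall fun q => h_bound hG v _ (by linarith))
  calc ∫ x, |G (x + v) - G x| ^ p ∂μ
      ≤ ∫ x, ∫ t, |fderiv ℝ G (x + t • v) v| ^ p ∂ν ∂μ :=
        integral_mono_ae hl hint.integral_prod_left
          (ae_restrict_of_ae ((ae_ae_differentiable hG v).mono fun x hx => diff_rpow_le hG hp v x hx))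
    _ = ∫ t, ∫ x, |fderiv ℝ G (x + t • v) v| ^ p ∂μ ∂ν := integral_integral_swap hint
    _ ≤ ∫ _t, (∫ y in box k (-1) (R + 1), |fderiv ℝ G y v| ^ p) ∂ν := by
        refine integral_mono_ae hint.integral_prod_right (integrable_const _) ?_
        filter_upwards [ae_restrict_mem measurableSet_Ioc] with t ht
        calc ∫ x in box k 0 R, |fderiv ℝ G (x + t • v) v| ^ p
            ≤ ∫ x in (fun x => x + t • v) ⁻¹' box k (-1) (R + 1),
                |fderiv ℝ G (x + t • v) v| ^ p := by
              refine setIntegral_mono_set ?_ (Eventually.of_forall fun _ => Real.rpow_nonneg (abs_nonneg _) _)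
                (Eventually.of_forall fun x hx i hi => ?_)
              · exact ((measurePreserving_add_right volume (t • v)).integrableOn_comp_preimage
                  (measurableEmbedding_addRight (t • v))).2 hbig
              · have h1 := hx i hi
                have h2 : |t * v i| ≤ 1 := by
                  rw [abs_mul, abs_of_pos ht.1]
                  exact mul_le_one₀ ht.2 (abs_nonneg _) (hv i)
                have h3 := abs_le.1 h2
                simp only [Set.mem_Icc, Pi.add_apply, Pi.smul_apply, smul_eq_mul] at h1 ⊢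
                constructor <;> linarith [h1.1, h1.2]
          _ = ∫ y in box k (-1) (R + 1), |fderiv ℝ G y v| ^ p :=
              (measurePreserving_add_right volume (t • v)).setIntegral_preimage_emb
                (measurableEmbedding_addRight (t • v)) (fun y => |fderiv ℝ G y v| ^ p) _
    _ = _ := by simp

include hG in
/-- Average displacement along random sign vectors. -/
lemma sum_box_diff_le {p : ℝ} (hp : 1 ≤ p) {R : ℝ} (hR : 0 ≤ R) :
    ∑ σ, ∫ x in box k 0 R, |G (x + svec σ) - G x| ^ p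
      ≤ 2 ^ k * khC p * (L : ℝ) ^ p * (R + 2) ^ k := by
  have hi : ∀ σ : Fin k → Bool, Integrable (fun y => |fderiv ℝ G y (svec σ)| ^ p)
      (volume.restrict (box k (-1) (R + 1))) := fun σ =>
    Integrable.of_bound (measurable_h _ p).aestronglyMeasurable
      ((L * euc (svec σ)) ^ p) (Eventually.of_forall fun q => h_bound hG _ _ (by linarith))
  calc ∑ σ, ∫ x in box k 0 R, |G (x + svec σ) - G x| ^ p
      ≤ ∑ σ, ∫ y in box k (-1) (R + 1), |fderiv ℝ G y (svec σ)| ^ p :=
        Finset.sum_le_sum fun σ _ => box_diff_le hG hp R _ fun i => (abs_sgn _).le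
    _ = ∫ y in box k (-1) (R + 1), ∑ σ, |fderiv ℝ G y (svec σ)| ^ p :=
        (integral_finsetSum _ fun σ _ => hi σ).symm
    _ ≤ ∫ _y in box k (-1) (R + 1), 2 ^ k * khC p * (L : ℝ) ^ p :=
        integral_mono (integrable_finsetSum _ fun σ _ => hi σ) (integrable_const _)
          fun y => sum_fderiv_rpow_le hG (by linarith) y
    _ = _ := by
        rw [setIntegral_const, real_box (by linarith), smul_eq_mul]; ring

end Vale.Agent.P249
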