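import Vale.Agent.P249.Gradient
import Mathlib.Analysis.InnerProductSpace.PiL2

namespace Vale.Agent.P249

open MeasureTheory Set Filter Finset

variable {k : ℕ}

/-- Index of the grid in `[-1, k+1]^k` with step `1/k`. -/
abbrev GridIdx (k : ℕ) := Fin k → Fin (k * (k + 2) + 1)

/-- Grid point. -/
noncomputable def pt (g : GridIdx k) : Fin k → ℝ := fun i => -1 + (g i : ℕ) / (k : ℝ)

lemma euc_eq_dist (x y : Fin k → ℝ) :
    euc (x - y) = dist (WithLp.toLp 2 x) (WithLp.toLp 2 y) := by
  rw [EuclideanSpace.dist_eq]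
  simp [euc, Real.dist_eq, sq_abs]

lemma euc_triangle (x y z : Fin k → ℝ) : euc (x - z) ≤ euc (x - y) + euc (y - z) := by
  simp only [euc_eq_dist]; exact dist_triangle _ _ _

lemma euc_sub_comm (x y : Fin k → ℝ) : euc (x - y) = euc (y - x) := by
  simp only [euc_eq_dist]; exact dist_comm _ _

lemma pt_injective (hk : k ≠ 0) : Function.Injective (pt : GridIdx k → Fin k → ℝ) := by
  intro g g' h
  funext i
  have h1 := congrFun h i
  simp only [pt, add_right_inj] at h1
  rw [div_left_inj' (Nat.cast_ne_zero.2 hk)] at h1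
  exact Fin.ext (Nat.cast_injective h1)

lemma exists_round (hk : 1 ≤ k) (x : Fin k → ℝ) (hx : x ∈ box k (-1) (k + 1)) :
    ∃ g : GridIdx k, euc (pt g - x) ≤ 1 := by
  have hk0 : (0:ℝ) < k := by exact_mod_cast hk
  have h : ∀ i, ⌊(x i + 1) * k⌋₊ < k * (k + 2) + 1 := by
    intro i
    have hxi := hx i (Set.mem_univ i)
    rw [Nat.lt_succ_iff]
    refine Nat.floor_le_of_le ?_
    push_cast
    nlinarith [hxi.2]
  refine ⟨fun i => ⟨_, h i⟩, ?_⟩
  rw [euc, Real.sqrt_le_one]
  calc ∑ i, ((pt (fun i => (⟨_, h i⟩ : Fin _)) - x) i) ^ 2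
      ≤ ∑ _i : Fin k, (1 / (k:ℝ)) := by
        refine Finset.sum_le_sum fun i _ => ?_
        have hxi := hx i (Set.mem_univ i)
        have hnn : 0 ≤ (x i + 1) * k := mul_nonneg (by linarith [hxi.1]) hk0.le
        have f1 := Nat.floor_le hnn
        have f2 := Nat.lt_floor_add_one ((x i + 1) * k)
        set m : ℝ := (⌊(x i + 1) * (k:ℝ)⌋₊ : ℝ)
        have e : (pt (fun i => (⟨_, h i⟩ : Fin _)) - x) i = (m - (x i + 1) * k) / k := by
          simp only [pt, Pi.sub_apply, m]; field_simp; ring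
        rw [e, div_pow, div_le_div_iff₀ (by positivity) hk0]
        have h1 : (m - (x i + 1) * k) ^ 2 ≤ 1 := by
          rw [sq_le_one_iff_abs_le_one]; rw [abs_le]; constructor <;> linarith
        have h2 : (1:ℝ) ≤ k := by exact_mod_cast hk
        nlinarith
    _ = 1 := by simp [hk0.ne']

lemma exists_extension (L : NNReal) (u : GridIdx k → ℝ)
    (hu : ∀ g g', |u g - u g'| ≤ L * euc (pt g - pt g')) :
    ∃ G : (Fin k → ℝ) → ℝ, (∀ x y, |G x - G y| ≤ L * euc (x - y)) ∧ ∀ g, G (pt g) = u g := by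
  let q : GridIdx k → EuclideanSpace ℝ (Fin k) := fun g => WithLp.toLp 2 (pt g)
  rcases Nat.eq_zero_or_pos k with hk | hk
  · subst hk
    refine ⟨fun _ => u default, fun x y => by simpa using mul_nonneg L.coe_nonneg (euc_nonneg _),
      fun g => ?_⟩
    rw [Subsingleton.elim g default]
  have hq : Function.Injective q := (WithLp.toLp_injective 2).comp (pt_injective hk.ne')
  have hl : LipschitzOnWith L (Function.extend q u 0) (Set.range q) := by
    refine LipschitzOnWith.of_dist_le_mul ?_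
    rintro _ ⟨g, rfl⟩ _ ⟨g', rfl⟩
    rw [hq.extend_apply, hq.extend_apply, Real.dist_eq, ← euc_eq_dist]
    exact hu g g'
  obtain ⟨G, hG, hGe⟩ := hl.extend_real
  refine ⟨fun x => G (WithLp.toLp 2 x), fun x y => ?_, fun g => ?_⟩
  · have := hG.dist_le_mul (WithLp.toLp 2 x) (WithLp.toLp 2 y)
    rwa [Real.dist_eq, ← euc_eq_dist] at this
  · show G (q g) = u g
    rw [← hGe (Set.mem_range_self g), hq.extend_apply]

lemma add_rpow_le_two_rpow {p a b : ℝ} (hp : 0 ≤ p) (ha : 0 ≤ a) (hb : 0 ≤ b) :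
    (a + b) ^ p ≤ (2:ℝ) ^ p * (a ^ p + b ^ p) := by
  have h1 : (a + b) ^ p ≤ (2 * max a b) ^ p :=
    Real.rpow_le_rpow (by positivity) (by linarith [le_max_left a b, le_max_right a b]) hp
  rw [Real.mul_rpow zero_le_two (le_max_of_le_left ha)] at h1
  refine h1.trans (mul_le_mul_of_nonneg_left ?_ (by positivity))
  rcases max_choice a b with h | h <;> rw [h] <;>
    linarith [Real.rpow_nonneg ha p, Real.rpow_nonneg hb p]

/-- The core estimate. -/
lemma core {p : ℝ} (hp : 1 ≤ p) (hk : 16 ≤ k) {d : ℕ} (L : NNReal) {s : ℝ} (hs : 0 ≤ s)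
    (f : GridIdx k → Fin d → ℝ)
    (hu : ∀ g g' j, |f g j - f g' j| ≤ L * euc (pt g - pt g'))
    (hl : ∀ g g', (s * euc (pt g - pt g')) ^ p ≤ ∑ j, |f g j - f g' j| ^ p) :
    (s * (Real.sqrt k / 2)) ^ p
      ≤ d * ((2:ℝ) ^ p * (L : ℝ) ^ p * (Real.exp 2 * khC p + (2:ℝ) ^ p)) := by
  choose G hG hGe using fun j => exists_extension L (fun g => f g j) (fun g g' => hu g g' j)
  have hk4 : 4 ≤ Real.sqrt k := Real.le_sqrt_of_sq_le (by norm_num; exact_mod_cast hk)
  have hp0 : 0 ≤ p := by linarith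
  have point : ∀ x ∈ box k 0 k, ∀ σ : Fin k → Bool,
      (s * (Real.sqrt k / 2)) ^ p
        ≤ ∑ j, (2:ℝ) ^ p * (|G j (x + svec σ) - G j x| ^ p + (2 * (L:ℝ)) ^ p) := by
    intro x hx σ
    obtain ⟨g, hg⟩ := exists_round (by omega) x (fun i hi => by
      have h0 := hx i hi; simp only [Set.mem_Icc] at h0 ⊢; constructor <;> linarith [h0.1, h0.2])
    obtain ⟨g', hg'⟩ := exists_round (by omega) (x + svec σ) (fun i hi => by
      have h0 := hx i hi
      have h1 : -1 ≤ svec σ i ∧ svec σ i ≤ 1 := abs_le.1 (abs_sgn (σ i)).le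
      simp only [Set.mem_Icc, Pi.add_apply] at h0 ⊢; constructor <;> linarith [h0.1, h0.2, h1.1, h1.2])
    have hd : Real.sqrt k / 2 ≤ euc (pt g' - pt g) := by
      have t1 := euc_triangle (x + svec σ) (pt g') x
      have t2 := euc_triangle (pt g') (pt g) x
      rw [add_sub_cancel_left, euc_svec, euc_sub_comm (x + svec σ) (pt g')] at t1
      linarith
    refine le_trans (Real.rpow_le_rpow (by positivity) (mul_le_mul_of_nonneg_left hd hs) hp0)
      ((hl g' g).trans (Finset.sum_le_sum fun j _ => ?_))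
    refine le_trans (Real.rpow_le_rpow (abs_nonneg _) ?_ hp0)
      (add_rpow_le_two_rpow hp0 (abs_nonneg _) (by positivity))
    rw [← hGe j g', ← hGe j g]
    have a1 := (hG j (pt g') (x + svec σ)).trans (mul_le_mul_of_nonneg_left hg' L.coe_nonneg)
    have a2 := (hG j (pt g) x).trans (mul_le_mul_of_nonneg_left hg L.coe_nonneg)
    have a3 := abs_le.1 a1
    have a4 := abs_le.1 a2
    rw [abs_le]
    have a5 := abs_le.1 (le_refl |G j (x + svec σ) - G j x|)
    constructor <;> linarith [a3.1, a3.2, a4.1, a4.2, a5.1, a5.2]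
  have hi : ∀ j σ, Integrable (fun x => |G j (x + svec σ) - G j x| ^ p)
      (volume.restrict (box k 0 (k:ℝ))) := by
    intro j σ
    have hc := (lipschitz_of_euc (hG j)).continuous
    refine Integrable.of_bound ?_ ((L * euc (svec σ)) ^ p) (Eventually.of_forall fun x => ?_)
    · exact (Continuous.rpow_const (by fun_prop) (fun _ => Or.inr hp0)).aestronglyMeasurable
    · rw [Real.norm_eq_abs, abs_of_nonneg (Real.rpow_nonneg (abs_nonneg _) _)]
      refine Real.rpow_le_rpow (abs_nonneg _) ?_ hp0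
      simpa using hG j (x + svec σ) x
  set V : ℝ := (k:ℝ) ^ k with hV
  have hV0 : 0 < V := pow_pos (by exact_mod_cast (by omega : 0 < k)) k
  have hvol : volume.real (box k 0 (k:ℝ)) = V := by
    rw [real_box (Nat.cast_nonneg k), sub_zero]
  have hW : ((k:ℝ) + 2) ^ k ≤ Real.exp 2 * V := by
    have hkr : (0:ℝ) < k := by exact_mod_cast (by omega : 0 < k)
    calc ((k:ℝ) + 2) ^ k = V * (2 / k + 1) ^ k := by
          rw [hV, ← mul_pow]; congr 1; field_simp; ring
      _ ≤ V * (Real.exp (2 / k)) ^ k :=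
          mul_le_mul_of_nonneg_left
            (pow_le_pow_left₀ (by positivity) (Real.add_one_le_exp _) k) hV0.le
      _ = Real.exp 2 * V := by rw [← Real.exp_nat_mul]; field_simp
  set A : ℝ := (s * (Real.sqrt k / 2)) ^ p
  set B : ℝ := (2 * (L:ℝ)) ^ p
  have main : (2:ℝ) ^ k * V * A
      ≤ (2:ℝ) ^ p * (d * (2 ^ k * khC p * (L:ℝ) ^ p * ((k:ℝ) + 2) ^ k + 2 ^ k * V * B)) := by
    calc (2:ℝ) ^ k * V * A = ∑ _σ : Fin k → Bool, ∫ _x in box k 0 (k:ℝ), A := by
          simp [hvol, mul_assoc]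
      _ ≤ ∑ σ : Fin k → Bool, ∫ x in box k 0 (k:ℝ),
            ∑ j, (2:ℝ) ^ p * (|G j (x + svec σ) - G j x| ^ p + B) := by
          refine Finset.sum_le_sum fun σ _ => integral_mono_ae (integrable_const _)
            (integrable_finsetSum _ fun j _ => ((hi j σ).add (integrable_const _)).const_mul _) ?_
          filter_upwards [ae_restrict_mem (measurableSet_box _ _)] with x hx
          exact point x hx σ
      _ = ∑ σ : Fin k → Bool, ∑ j, (2:ℝ) ^ p *
            ((∫ x in box k 0 (k:ℝ), |G j (x + svec σ) - G j x| ^ p) + V * B) := by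
          refine Finset.sum_congr rfl fun σ _ => ?_
          rw [integral_finsetSum]
          swap
          · exact fun j _ => ((hi j σ).add (integrable_const B)).const_mul _
          refine Finset.sum_congr rfl fun j _ => ?_
          rw [integral_const_mul, integral_add (hi j σ) (integrable_const _), setIntegral_const,
            hvol, smul_eq_mul]
      _ = ∑ j, (2:ℝ) ^ p * ((∑ σ : Fin k → Bool,
            ∫ x in box k 0 (k:ℝ), |G j (x + svec σ) - G j x| ^ p) + 2 ^ k * V * B) := by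
          rw [Finset.sum_comm]
          refine Finset.sum_congr rfl fun j _ => ?_
          simp [← Finset.mul_sum, Finset.sum_add_distrib, mul_assoc]
      _ ≤ ∑ _j : Fin d, (2:ℝ) ^ p *
            (2 ^ k * khC p * (L:ℝ) ^ p * ((k:ℝ) + 2) ^ k + 2 ^ k * V * B) := by
          refine Finset.sum_le_sum fun j _ => ?_
          gcongr
          exact sum_box_diff_le (hG j) hp (Nat.cast_nonneg k)
      _ = _ := by simp; ring
  have hB : B = (L:ℝ) ^ p * (2:ℝ) ^ p := by
    rw [mul_comm]; exact Real.mul_rpow zero_le_two L.coe_nonneg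
  have hC := khC_pos (by linarith : 0 < p)
  refine le_of_mul_le_mul_left ?_ (show 0 < (2:ℝ) ^ k * V by positivity)
  refine main.trans ?_
  calc (2:ℝ) ^ p * (d * (2 ^ k * khC p * (L:ℝ) ^ p * ((k:ℝ) + 2) ^ k + 2 ^ k * V * B))
      ≤ (2:ℝ) ^ p * (d * (2 ^ k * khC p * (L:ℝ) ^ p * (Real.exp 2 * V) + 2 ^ k * V * B)) := by
        gcongr
    _ = _ := by rw [hB]; ring

end Vale.Agent.P249
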