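import Mathlib.Analysis.SpecialFunctions.Trigonometric.Series
import Mathlib.Analysis.MeanInequalitiesPow
import Mathlib.Data.Fin.Tuple.Basic

namespace Vale.Agent.P249

open Finset Real

/-- The sign of a boolean. -/
def sgn (b : Bool) : ℝ := if b then 1 else -1

/-- The signed sum. -/
noncomputable def ssum {k : ℕ} (a : Fin k → ℝ) (σ : Fin k → Bool) : ℝ := ∑ i, a i * sgn (σ i)

lemma sum_cons {k : ℕ} (F : (Fin (k+1) → Bool) → ℝ) :
    ∑ σ, F σ = ∑ σ : Fin k → Bool, (F (Fin.cons true σ) + F (Fin.cons false σ)) := by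
  rw [← (Fin.consEquiv fun _ : Fin (k+1) => Bool).sum_comp F, Fintype.sum_prod_type,
    Fintype.sum_bool, ← Finset.sum_add_distrib]
  rfl

lemma ssum_cons {k : ℕ} (a : Fin (k+1) → ℝ) (b : Bool) (σ : Fin k → Bool) :
    ssum a (Fin.cons b σ) = a 0 * sgn b + ssum (fun i => a i.succ) σ := by
  simp [ssum, Fin.sum_univ_succ]

lemma sum_exp_ssum : ∀ {k : ℕ} (a : Fin k → ℝ),
    ∑ σ, exp (ssum a σ) ≤ 2 ^ k * exp ((∑ i, a i ^ 2) / 2)
  | 0, a => by simp [ssum]
  | k+1, a => by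
    rw [sum_cons]
    have h : ∀ σ : Fin k → Bool,
        exp (ssum a (Fin.cons true σ)) + exp (ssum a (Fin.cons false σ))
          = 2 * cosh (a 0) * exp (ssum (fun i => a i.succ) σ) := by
      intro σ
      rw [ssum_cons, ssum_cons, exp_add, exp_add, cosh_eq]
      simp [sgn]; ring
    simp_rw [h]
    rw [← Finset.mul_sum]
    calc 2 * cosh (a 0) * ∑ σ, exp (ssum (fun i => a i.succ) σ)
        ≤ 2 * exp (a 0 ^ 2 / 2) * (2 ^ k * exp ((∑ i : Fin k, a i.succ ^ 2) / 2)) := by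
          refine mul_le_mul ?_ (sum_exp_ssum _) (by positivity) (by positivity)
          linarith [cosh_le_exp_half_sq (a 0)]
      _ = 2 ^ (k+1) * exp ((∑ i, a i ^ 2) / 2) := by
          rw [Fin.sum_univ_succ (fun i => a i ^ 2), add_div, exp_add]; ring

lemma sum_sq_ssum : ∀ {k : ℕ} (a : Fin k → ℝ),
    ∑ σ, ssum a σ ^ 2 = 2 ^ k * ∑ i, a i ^ 2
  | 0, a => by simp [ssum]
  | k+1, a => by
    rw [sum_cons]
    simp_rw [ssum_cons]
    have h : ∀ σ : Fin k → Bool,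
        (a 0 * sgn true + ssum (fun i => a i.succ) σ) ^ 2
          + (a 0 * sgn false + ssum (fun i => a i.succ) σ) ^ 2
          = 2 * a 0 ^ 2 + 2 * ssum (fun i => a i.succ) σ ^ 2 := by
      intro σ; simp [sgn]; ring
    simp_rw [h]
    rw [Finset.sum_add_distrib, ← Finset.mul_sum Finset.univ (fun σ => ssum (fun i => a i.succ) σ ^ 2), sum_sq_ssum]
    simp [Fin.sum_univ_succ (fun i => a i ^ 2)]
    ring

/-- The constant in the upper Khintchine bound. -/
noncomputable def khC (p : ℝ) : ℝ := p ^ p * (2 * exp (1/2))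

lemma khC_pos {p : ℝ} (hp : 0 < p) : 0 < khC p := by unfold khC; positivity

lemma one_le_khC {p : ℝ} (hp : 1 ≤ p) : 1 ≤ khC p := by
  have h1 : 1 ≤ p ^ p := one_le_rpow hp (by linarith)
  have h2 : (1:ℝ) ≤ exp (1/2) := one_le_exp (by norm_num)
  unfold khC; nlinarith

lemma abs_rpow_le_exp {p : ℝ} (hp : 0 < p) (s : ℝ) :
    |s| ^ p ≤ p ^ p * (exp s + exp (-s)) := by
  have h1 : |s| / p ≤ exp (|s| / p) := by
    have := add_one_le_exp (|s| / p); linarith
  have h2 : (|s| / p) ^ p ≤ exp (|s| / p) ^ p := rpow_le_rpow (by positivity) h1 hp.le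
  rw [← exp_mul, div_mul_cancel₀ _ hp.ne', div_rpow (abs_nonneg _) hp.le,
    div_le_iff₀ (rpow_pos_of_pos hp _)] at h2
  have h3 : exp |s| ≤ exp s + exp (-s) := by
    rcases abs_choice s with h | h <;> rw [h] <;> linarith [exp_pos s, exp_pos (-s)]
  calc |s| ^ p ≤ exp |s| * p ^ p := h2
    _ ≤ p ^ p * (exp s + exp (-s)) := by
      rw [mul_comm]; exact mul_le_mul_of_nonneg_left h3 (by positivity)

/-- Khintchine, upper bound. -/
lemma khintchine_le {p : ℝ} (hp : 0 < p) {k : ℕ} (a : Fin k → ℝ) :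
    ∑ σ, |ssum a σ| ^ p ≤ 2 ^ k * khC p * Real.sqrt (∑ i, a i ^ 2) ^ p := by
  set A := Real.sqrt (∑ i, a i ^ 2) with hA
  rcases eq_or_ne A 0 with h0 | h0
  · have hs : ∑ i, a i ^ 2 = 0 := by
      exact (Real.sqrt_eq_zero (Finset.sum_nonneg fun i _ => sq_nonneg _)).1 h0
    have ha : ∀ i, a i = 0 := fun i => by
      have := (Finset.sum_eq_zero_iff_of_nonneg fun i _ => sq_nonneg (a i)).1 hs i (by simp)
      exact pow_eq_zero_iff two_ne_zero |>.1 this
    simp [ssum, ha, h0, zero_rpow hp.ne']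
  have hApos : 0 < A := lt_of_le_of_ne (Real.sqrt_nonneg _) (Ne.symm h0)
  let b : Fin k → ℝ := fun i => a i / A
  have hb : ∑ i, b i ^ 2 = 1 := by
    have hA2 : A ^ 2 = ∑ i, a i ^ 2 := sq_sqrt (Finset.sum_nonneg fun i _ => sq_nonneg _)
    simp only [b, div_eq_mul_inv, mul_pow]
    rw [← Finset.sum_mul, ← hA2, inv_pow, mul_inv_cancel₀ (pow_ne_zero 2 h0)]
  have hn : ∀ σ, ssum (fun i => -b i) σ = -ssum b σ := fun σ => by
    simp [ssum, neg_mul, Finset.sum_neg_distrib]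
  have key : ∑ σ, |ssum b σ| ^ p ≤ 2 ^ k * khC p := by
    have e1 := sum_exp_ssum b
    have e2 := sum_exp_ssum fun i => -b i
    simp only [hn, neg_sq] at e2
    rw [hb] at e1 e2
    calc ∑ σ, |ssum b σ| ^ p
        ≤ ∑ σ, p ^ p * (exp (ssum b σ) + exp (-ssum b σ)) :=
          Finset.sum_le_sum fun σ _ => abs_rpow_le_exp hp _
      _ = p ^ p * (∑ σ, exp (ssum b σ) + ∑ σ, exp (-ssum b σ)) := by
          rw [← Finset.mul_sum, Finset.sum_add_distrib]
      _ ≤ p ^ p * (2 ^ k * exp (1/2) + 2 ^ k * exp (1/2)) :=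
          mul_le_mul_of_nonneg_left (by linarith) (by positivity)
      _ = 2 ^ k * khC p := by unfold khC; ring
  have hs : ∀ σ, |ssum a σ| ^ p = A ^ p * |ssum b σ| ^ p := by
    intro σ
    have : ssum a σ = A * ssum b σ := by
      simp only [ssum, Finset.mul_sum, b]
      refine Finset.sum_congr rfl fun i _ => ?_
      field_simp
    rw [this, abs_mul, abs_of_pos hApos, mul_rpow hApos.le (abs_nonneg _)]
  simp_rw [hs]
  rw [← Finset.mul_sum, mul_comm _ (A ^ p)]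
  exact mul_le_mul_of_nonneg_left key (by positivity)

/-- Khintchine, lower bound for exponent at least two. -/
lemma le_khintchine {p : ℝ} (hp : 2 ≤ p) {k : ℕ} (a : Fin k → ℝ) :
    2 ^ k * Real.sqrt (∑ i, a i ^ 2) ^ p ≤ ∑ σ, |ssum a σ| ^ p := by
  have h := Real.rpow_arith_mean_le_arith_mean_rpow (Finset.univ : Finset (Fin k → Bool))
    (fun _ => (1 / 2 ^ k : ℝ)) (fun σ => ssum a σ ^ 2) (fun _ _ => by positivity)
    (by simp) (fun _ _ => sq_nonneg _) (show 1 ≤ p / 2 by linarith)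
  rw [← Finset.mul_sum, ← Finset.mul_sum, sum_sq_ssum, ← mul_assoc, one_div,
    inv_mul_cancel₀ (by positivity), one_mul] at h
  have e : ∀ x : ℝ, (x ^ 2) ^ (p / 2) = |x| ^ p := by
    intro x
    rw [← sq_abs, ← rpow_two, ← rpow_mul (abs_nonneg _)]; congr 1; ring
  simp_rw [e] at h
  have e2 : Real.sqrt (∑ i, a i ^ 2) ^ p = (∑ i, a i ^ 2) ^ (p / 2) := by
    rw [sqrt_eq_rpow, ← rpow_mul (Finset.sum_nonneg fun i _ => sq_nonneg _)]; congr 1; ring
  rw [e2]
  calc 2 ^ k * (∑ i, a i ^ 2) ^ (p/2) ≤ 2 ^ k * ((2 ^ k)⁻¹ * ∑ σ, |ssum a σ| ^ p) :=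
        mul_le_mul_of_nonneg_left h (by positivity)
    _ = _ := by field_simp

end Vale.Agent.P249
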