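import Vale.Agent.P249.Grid
import Mathlib.Logic.Equiv.Fintype

namespace Vale.Agent.P249

open Finset

/-- The distance of the norm (∑ |y_i|^p)^(1/p). -/
noncomputable def lpDist (p : ℝ) {m : ℕ} (x y : Fin m → ℝ) : ℝ :=
  (∑ i, |x i - y i| ^ p) ^ (1 / p)

lemma lpDist_rpow {p : ℝ} (hp : 0 < p) {m : ℕ} (x y : Fin m → ℝ) :
    lpDist p x y ^ p = ∑ i, |x i - y i| ^ p := by
  rw [lpDist, ← Real.rpow_mul (Finset.sum_nonneg fun i _ => Real.rpow_nonneg (abs_nonneg _) _),
    one_div, inv_mul_cancel₀ hp.ne', Real.rpow_one]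

lemma lpDist_nonneg (p : ℝ) {m : ℕ} (x y : Fin m → ℝ) : 0 ≤ lpDist p x y :=
  Real.rpow_nonneg (Finset.sum_nonneg fun _ _ => Real.rpow_nonneg (abs_nonneg _) _) _

/-- Random-sign image of a vector. -/
noncomputable def signEmb (p : ℝ) {k : ℕ} (z : Fin k → ℝ) (σ : Fin k → Bool) : ℝ :=
  ((2:ℝ) ^ k)⁻¹ ^ (1 / p) * ssum z σ

lemma sum_signEmb {p : ℝ} (hp : 0 < p) {k : ℕ} (z w : Fin k → ℝ) :
    ∑ σ, |signEmb p z σ - signEmb p w σ| ^ p
      = ((2:ℝ) ^ k)⁻¹ * ∑ σ, |ssum (z - w) σ| ^ p := by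
  rw [Finset.mul_sum]
  refine Finset.sum_congr rfl fun σ _ => ?_
  have : signEmb p z σ - signEmb p w σ = ((2:ℝ) ^ k)⁻¹ ^ (1 / p) * ssum (z - w) σ := by
    simp only [signEmb, ssum, Pi.sub_apply, sub_mul, Finset.sum_sub_distrib, mul_sub]
  rw [this, abs_mul, abs_of_nonneg (by positivity),
    Real.mul_rpow (by positivity) (abs_nonneg _), ← Real.rpow_mul (by positivity), one_div,
    inv_mul_cancel₀ hp.ne', Real.rpow_one]

lemma signEmb_bounds {p : ℝ} (hp : 2 ≤ p) {k : ℕ} (z w : Fin k → ℝ) :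
    euc (z - w) ^ p ≤ ∑ σ, |signEmb p z σ - signEmb p w σ| ^ p ∧
    ∑ σ, |signEmb p z σ - signEmb p w σ| ^ p ≤ khC p * euc (z - w) ^ p := by
  rw [sum_signEmb (by linarith)]
  have h1 := le_khintchine hp (z - w)
  have h2 := khintchine_le (p := p) (by linarith) (z - w)
  constructor
  · rw [le_inv_mul_iff₀ (by positivity)]; exact h1
  · rw [inv_mul_le_iff₀ (by positivity), ← mul_assoc]; exact h2

/-- The `n` points. -/
noncomputable def points (p : ℝ) {k n : ℕ} (e : GridIdx k ↪ Fin n) :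
    Fin n → ((Fin k → Bool) ⊕ Unit) → ℝ :=
  Function.extend e (fun g => Sum.elim (signEmb p (pt g)) 0)
    (fun i => Sum.elim 0 (fun _ => (i:ℕ) + 1))

lemma points_injective {p : ℝ} (hp : 2 ≤ p) {k n : ℕ} (hk : k ≠ 0) (e : GridIdx k ↪ Fin n) :
    Function.Injective (points p e) := by
  intro i i' h
  by_cases hi : ∃ g, e g = i <;> by_cases hi' : ∃ g, e g = i'
  · obtain ⟨g, rfl⟩ := hi; obtain ⟨g', rfl⟩ := hi'
    simp only [points, e.injective.extend_apply] at h
    have h2 := (signEmb_bounds hp (pt g) (pt g')).1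
    have h3 : ∀ σ, signEmb p (pt g) σ = signEmb p (pt g') σ := fun σ => congrFun h (Sum.inl σ)
    simp only [h3, sub_self, abs_zero, Real.zero_rpow (by linarith : p ≠ 0), Finset.sum_const_zero] at h2
    have h4 : euc (pt g - pt g') = 0 := by
      by_contra hne
      exact absurd h2 (not_le.2 (Real.rpow_pos_of_pos (lt_of_le_of_ne (euc_nonneg _) (Ne.symm hne)) _))
    rw [euc_eq_dist, dist_eq_zero] at h4
    rw [pt_injective hk ((WithLp.toLp_injective 2) h4)]
  · obtain ⟨g, rfl⟩ := hi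
    have h1 := congrFun h (Sum.inr ())
    rw [points, e.injective.extend_apply, Function.extend_apply' _ _ _ hi'] at h1
    simp at h1; have : (0:ℝ) ≤ (i':ℕ) := Nat.cast_nonneg _; linarith
  · obtain ⟨g, rfl⟩ := hi'
    have h1 := congrFun h (Sum.inr ())
    rw [points, e.injective.extend_apply, Function.extend_apply' _ _ _ hi] at h1
    simp at h1; have : (0:ℝ) ≤ (i:ℕ) := Nat.cast_nonneg _; linarith
  · have h1 := congrFun h (Sum.inr ())
    rw [points, Function.extend_apply' _ _ _ hi', Function.extend_apply' _ _ _ hi] at h1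
    simp at h1
    exact Fin.ext h1

/-- The constant in the lower bound. -/
noncomputable def lbK (p D : ℝ) : ℝ :=
  (4:ℝ) ^ p * D ^ p * khC p * (Real.exp 2 * khC p + (2:ℝ) ^ p)

lemma one_le_lbK {p D : ℝ} (hp : 2 ≤ p) (hD : 1 ≤ D) : 1 ≤ lbK p D := by
  have h1 : 1 ≤ (4:ℝ) ^ p := Real.one_le_rpow (by norm_num) (by linarith)
  have h2 : 1 ≤ D ^ p := Real.one_le_rpow hD (by linarith)
  have h3 := one_le_khC (p := p) (by linarith)
  have h4 : 1 ≤ (2:ℝ) ^ p := Real.one_le_rpow (by norm_num) (by linarith)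
  have h5 : 0 ≤ Real.exp 2 * khC p := by positivity
  exact one_le_mul_of_one_le_of_one_le
    (one_le_mul_of_one_le_of_one_le (one_le_mul_of_one_le_of_one_le h1 h2) h3) (by linarith)

/-- For `k ≥ 16` and `n` at least the grid size, `n` points needing dimension of order `k^(p/2)`. -/
lemma exists_points {p D : ℝ} (hp : 2 ≤ p) (hD : 1 ≤ D) {k n : ℕ} (hk : 16 ≤ k)
    (hn : Fintype.card (GridIdx k) ≤ n) :
    ∃ (m : ℕ) (X : Fin n → Fin m → ℝ), Function.Injective X ∧
      ∀ (d : ℕ) (f : Fin n → Fin d → ℝ) (s : ℝ), 0 < s →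
        (∀ i i', s * lpDist p (X i) (X i') ≤ lpDist p (f i) (f i') ∧
          lpDist p (f i) (f i') ≤ D * s * lpDist p (X i) (X i')) →
        (k:ℝ) ^ (p / 2) ≤ lbK p D * d := by
  have hp0 : 0 < p := by linarith
  obtain ⟨e⟩ : Nonempty (GridIdx k ↪ Fin n) :=
    Function.Embedding.nonempty_of_card_le (by simpa using hn)
  let ι := (Fin k → Bool) ⊕ Unit
  let φ := Fintype.equivFin ι
  refine ⟨Fintype.card ι, fun i t => points p e i (φ.symm t), ?_, ?_⟩
  · intro i i' h
    refine points_injective hp (by omega) e (funext fun a => ?_)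
    simpa using congrFun h (φ a)
  intro d f s hs hf
  have hX : ∀ g g', lpDist p (fun t => points p e (e g) (φ.symm t))
      (fun t => points p e (e g') (φ.symm t)) ^ p
      = ∑ σ, |signEmb p (pt g) σ - signEmb p (pt g') σ| ^ p := by
    intro g g'
    rw [lpDist_rpow hp0, φ.symm.sum_comp (fun a => |points p e (e g) a - points p e (e g') a| ^ p),
      points, e.injective.extend_apply, e.injective.extend_apply]
    rw [Fintype.sum_sum_type]
    simp [Real.zero_rpow hp0.ne']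
  have hC := khC_pos hp0
  set L : ℝ := D * s * khC p ^ (1 / p)
  have hL : 0 ≤ L := by positivity
  have hLp : L ^ p = D ^ p * s ^ p * khC p := by
    rw [Real.mul_rpow (by positivity) (by positivity), Real.mul_rpow (by linarith) hs.le,
      ← Real.rpow_mul hC.le, one_div, inv_mul_cancel₀ hp0.ne', Real.rpow_one]
  have h := core (p := p) (by linarith) hk (L := ⟨L, hL⟩) hs.le (fun g => f (e g)) ?_ ?_
  · change _ ≤ (d:ℝ) * ((2:ℝ) ^ p * L ^ p * _) at h
    rw [hLp, Real.mul_rpow hs.le (by positivity),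
      Real.div_rpow (Real.sqrt_nonneg _) zero_le_two, Real.sqrt_eq_rpow,
      ← Real.rpow_mul (Nat.cast_nonneg k), show (1:ℝ) / 2 * p = p / 2 by ring] at h
    have hsp : 0 < s ^ p := Real.rpow_pos_of_pos hs _
    have h4 : (4:ℝ) ^ p = (2:ℝ) ^ p * (2:ℝ) ^ p := by
      rw [← Real.mul_rpow zero_le_two zero_le_two]; norm_num
    rw [← mul_div_assoc, div_le_iff₀ (by positivity)] at h
    refine le_of_mul_le_mul_left ?_ hsp
    refine h.trans (le_of_eq ?_)
    rw [lbK, h4]; ring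
  · intro g g' j
    have hb : ∑ j, |f (e g) j - f (e g') j| ^ p ≤ (L * euc (pt g - pt g')) ^ p := by
      rw [← lpDist_rpow hp0, Real.mul_rpow hL (euc_nonneg _), hLp]
      refine (Real.rpow_le_rpow (lpDist_nonneg _ _ _) (hf (e g) (e g')).2 hp0.le).trans ?_
      rw [Real.mul_rpow (by positivity) (lpDist_nonneg _ _ _), Real.mul_rpow (by linarith) hs.le,
        hX, mul_assoc (D ^ p * s ^ p)]
      exact mul_le_mul_of_nonneg_left (signEmb_bounds hp _ _).2 (by positivity)
    refine (Real.rpow_le_rpow_iff (abs_nonneg _) (mul_nonneg hL (euc_nonneg _)) hp0).1 ?_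
    exact (Finset.single_le_sum (f := fun j => |f (e g) j - f (e g') j| ^ p)
      (fun i _ => Real.rpow_nonneg (abs_nonneg _) _) (Finset.mem_univ j)).trans hb
  · intro g g'
    rw [← lpDist_rpow hp0]
    refine le_trans ?_ (Real.rpow_le_rpow (mul_nonneg hs.le (lpDist_nonneg _ _ _))
      (hf (e g) (e g')).1 hp0.le)
    rw [Real.mul_rpow hs.le (euc_nonneg _), Real.mul_rpow hs.le (lpDist_nonneg _ _ _), hX]
    exact mul_le_mul_of_nonneg_left (signEmb_bounds hp _ _).1 (by positivity)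

end Vale.Agent.P249
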